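import Mathlib

/-!
# S0453, abstract two-pair lemma (helper18): class averages on a finite set

`cl Φ k x` is the class of `x` in `Φ` for the key `k`, `E Φ k φ` the class average of `φ`,
`ip Φ φ ψ = ∑_{x ∈ Φ} φ x * ψ x`.  Basic calculus: `E` is linear, self-adjoint for `ip`,
idempotent, satisfies the tower property, and two such operators compose to a third one when
classes in a common coarser fibre are isomorphic (`E_E_of_inj`).
-/

set_option autoImplicit false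

namespace Crest.Agent.Helper18.TPL

open Finset

section

variable {X : Type*} (Φ : Finset X)

/-- the class of `x` in `Φ` for the key `k`. -/
def cl {K : Type*} [DecidableEq K] (k : X → K) (x : X) : Finset X := Φ.filter (fun y => k y = k x)

/-- the class average. -/
noncomputable def E {K : Type*} [DecidableEq K] (k : X → K) (φ : X → ℝ) (x : X) : ℝ :=
  (∑ y ∈ Φ.filter (fun y => k y = k x), φ y) / ((Φ.filter (fun y => k y = k x)).card : ℝ)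

/-- the counting inner product on `Φ`. -/
def ip (φ ψ : X → ℝ) : ℝ := ∑ x ∈ Φ, φ x * ψ x

variable {Φ}
variable {K K' K₀ : Type*} [DecidableEq K] [DecidableEq K'] [DecidableEq K₀]

theorem mem_cl {k : X → K} {x y : X} : y ∈ cl Φ k x ↔ y ∈ Φ ∧ k y = k x := by
  simp [cl]

theorem self_mem_cl {k : X → K} {x : X} (hx : x ∈ Φ) : x ∈ cl Φ k x := mem_cl.2 ⟨hx, rfl⟩

theorem cl_eq_of_key_eq {k : X → K} {x y : X} (h : k x = k y) : cl Φ k x = cl Φ k y := by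
  ext z; simp [mem_cl, h]

theorem E_def (k : X → K) (φ : X → ℝ) (x : X) :
    E Φ k φ x = (∑ y ∈ cl Φ k x, φ y) / ((cl Φ k x).card : ℝ) := rfl

theorem card_cl_pos {k : X → K} {x : X} (hx : x ∈ Φ) : (0 : ℝ) < ((cl Φ k x).card : ℝ) := by
  exact_mod_cast Finset.card_pos.2 ⟨x, self_mem_cl hx⟩

theorem E_eq_of_key_eq {k : X → K} (φ : X → ℝ) {x y : X} (h : k x = k y) :
    E Φ k φ x = E Φ k φ y := by
  rw [E_def, E_def, cl_eq_of_key_eq h]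

theorem E_congr {k : X → K} {φ ψ : X → ℝ} (h : ∀ y ∈ Φ, φ y = ψ y) (x : X) :
    E Φ k φ x = E Φ k ψ x := by
  rw [E_def, E_def]
  congr 1
  exact Finset.sum_congr rfl fun y hy => h y (mem_cl.1 hy).1

theorem E_sub (k : X → K) (φ ψ : X → ℝ) (x : X) :
    E Φ k (fun y => φ y - ψ y) x = E Φ k φ x - E Φ k ψ x := by
  rw [E_def, E_def, E_def, Finset.sum_sub_distrib, sub_div]

theorem E_add (k : X → K) (φ ψ : X → ℝ) (x : X) :
    E Φ k (fun y => φ y + ψ y) x = E Φ k φ x + E Φ k ψ x := by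
  rw [E_def, E_def, E_def, Finset.sum_add_distrib, add_div]

theorem E_zero (k : X → K) (x : X) : E Φ k (fun _ => (0 : ℝ)) x = 0 := by
  rw [E_def]; simp

/-- a function constant on the class of `x` is its own average there. -/
theorem E_of_const {k : X → K} {χ : X → ℝ} {x : X} (hx : x ∈ Φ)
    (h : ∀ y ∈ Φ, k y = k x → χ y = χ x) : E Φ k χ x = χ x := by
  rw [E_def, Finset.sum_congr rfl fun y hy => h y (mem_cl.1 hy).1 (mem_cl.1 hy).2,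
    Finset.sum_const, nsmul_eq_mul]
  field_simp [(card_cl_pos (k := k) hx).ne']

/-- the sum of the class average over a class is the sum of the function. -/
theorem sum_cl_E (k : X → K) (φ : X → ℝ) {x : X} (hx : x ∈ Φ) :
    ∑ y ∈ cl Φ k x, E Φ k φ y = ∑ y ∈ cl Φ k x, φ y := by
  rw [Finset.sum_congr rfl fun y hy => E_eq_of_key_eq φ (mem_cl.1 hy).2, Finset.sum_const,
    nsmul_eq_mul, E_def]
  field_simp [(card_cl_pos (k := k) hx).ne']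

/-- a sum over a class of a coarser key splits into classes of the finer key. -/
theorem sum_cl_coarse {k : X → K} {k' : X → K'}
    (hk : ∀ x ∈ Φ, ∀ y ∈ Φ, k' x = k' y → k x = k y) (G₁ G₂ : X → ℝ) {x : X}
    (hG : ∀ y ∈ Φ, ∑ z ∈ cl Φ k' y, G₁ z = ∑ z ∈ cl Φ k' y, G₂ z) :
    ∑ y ∈ cl Φ k x, G₁ y = ∑ y ∈ cl Φ k x, G₂ y := by
  classical
  rw [← Finset.sum_fiberwise_of_maps_to (g := k') (t := (cl Φ k x).image k')
      (fun y hy => Finset.mem_image_of_mem _ hy) G₁,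
    ← Finset.sum_fiberwise_of_maps_to (g := k') (t := (cl Φ k x).image k')
      (fun y hy => Finset.mem_image_of_mem _ hy) G₂]
  refine Finset.sum_congr rfl fun j hj => ?_
  obtain ⟨y₀, hy₀, rfl⟩ := Finset.mem_image.1 hj
  have hy₀Φ := (mem_cl.1 hy₀).1
  have : (cl Φ k x).filter (fun y => k' y = k' y₀) = cl Φ k' y₀ := by
    ext z
    simp only [Finset.mem_filter, mem_cl]
    constructor
    · rintro ⟨⟨hz, -⟩, hz'⟩; exact ⟨hz, hz'⟩
    · rintro ⟨hz, hz'⟩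
      exact ⟨⟨hz, (hk z hz y₀ hy₀Φ hz').trans (mem_cl.1 hy₀).2⟩, hz'⟩
  rw [this]
  exact hG y₀ hy₀Φ

/-- tower property, coarse after fine. -/
theorem E_tower {k : X → K} {k' : X → K'}
    (hk : ∀ x ∈ Φ, ∀ y ∈ Φ, k' x = k' y → k x = k y) (φ : X → ℝ) (x : X) :
    E Φ k (E Φ k' φ) x = E Φ k φ x := by
  rw [E_def, E_def]
  congr 1
  exact sum_cl_coarse hk _ _ fun y hy => sum_cl_E k' φ hy

/-- tower property, fine after coarse. -/
theorem E_tower' {k : X → K} {k' : X → K'}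
    (hk : ∀ x ∈ Φ, ∀ y ∈ Φ, k' x = k' y → k x = k y) (φ : X → ℝ) {x : X} (hx : x ∈ Φ) :
    E Φ k' (E Φ k φ) x = E Φ k φ x :=
  E_of_const hx fun y hy hyx => E_eq_of_key_eq φ (hk y hy x hx hyx)

theorem E_idem (k : X → K) (φ : X → ℝ) (x : X) : E Φ k (E Φ k φ) x = E Φ k φ x :=
  E_tower (fun _ _ _ _ h => h) φ x

theorem ip_comm (φ ψ : X → ℝ) : ip Φ φ ψ = ip Φ ψ φ := by
  unfold ip; exact Finset.sum_congr rfl fun x _ => mul_comm _ _

theorem ip_congr {φ φ' ψ ψ' : X → ℝ} (h1 : ∀ x ∈ Φ, φ x = φ' x) (h2 : ∀ x ∈ Φ, ψ x = ψ' x) :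
    ip Φ φ ψ = ip Φ φ' ψ' := by
  unfold ip; exact Finset.sum_congr rfl fun x hx => by rw [h1 x hx, h2 x hx]

theorem ip_sub_left (φ φ' ψ : X → ℝ) :
    ip Φ (fun x => φ x - φ' x) ψ = ip Φ φ ψ - ip Φ φ' ψ := by
  unfold ip; rw [← Finset.sum_sub_distrib]; exact Finset.sum_congr rfl fun x _ => by ring

theorem ip_sub_right (φ ψ ψ' : X → ℝ) :
    ip Φ φ (fun x => ψ x - ψ' x) = ip Φ φ ψ - ip Φ φ ψ' := by
  unfold ip; rw [← Finset.sum_sub_distrib]; exact Finset.sum_congr rfl fun x _ => by ring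

theorem ip_add_left (φ φ' ψ : X → ℝ) :
    ip Φ (fun x => φ x + φ' x) ψ = ip Φ φ ψ + ip Φ φ' ψ := by
  unfold ip; rw [← Finset.sum_add_distrib]; exact Finset.sum_congr rfl fun x _ => by ring

theorem ip_add_right (φ ψ ψ' : X → ℝ) :
    ip Φ φ (fun x => ψ x + ψ' x) = ip Φ φ ψ + ip Φ φ ψ' := by
  unfold ip; rw [← Finset.sum_add_distrib]; exact Finset.sum_congr rfl fun x _ => by ring

theorem ip_self_nonneg (φ : X → ℝ) : 0 ≤ ip Φ φ φ :=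
  Finset.sum_nonneg fun x _ => mul_self_nonneg _

/-- a `k`-measurable function sees `ψ` only through its class averages. -/
theorem ip_meas {k : X → K} {χ : X → ℝ} (hχ : ∀ x ∈ Φ, ∀ y ∈ Φ, k x = k y → χ x = χ y)
    (ψ : X → ℝ) : ip Φ χ ψ = ip Φ χ (E Φ k ψ) := by
  classical
  unfold ip
  rw [← Finset.sum_fiberwise_of_maps_to (g := k) (t := Φ.image k)
      (fun y hy => Finset.mem_image_of_mem _ hy) (fun x => χ x * ψ x),
    ← Finset.sum_fiberwise_of_maps_to (g := k) (t := Φ.image k)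
      (fun y hy => Finset.mem_image_of_mem _ hy) (fun x => χ x * E Φ k ψ x)]
  refine Finset.sum_congr rfl fun j hj => ?_
  obtain ⟨y₀, hy₀, rfl⟩ := Finset.mem_image.1 hj
  have h1 : ∀ x ∈ Φ.filter (fun x => k x = k y₀), χ x * ψ x = χ y₀ * ψ x := by
    intro x hx
    rw [hχ x (Finset.mem_filter.1 hx).1 y₀ hy₀ (Finset.mem_filter.1 hx).2]
  have h2 : ∀ x ∈ Φ.filter (fun x => k x = k y₀), χ x * E Φ k ψ x = χ y₀ * E Φ k ψ x := by
    intro x hx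
    rw [hχ x (Finset.mem_filter.1 hx).1 y₀ hy₀ (Finset.mem_filter.1 hx).2]
  rw [Finset.sum_congr rfl h1, Finset.sum_congr rfl h2, ← Finset.mul_sum, ← Finset.mul_sum]
  congr 1
  exact (sum_cl_E k ψ hy₀).symm

/-- `E` is self-adjoint. -/
theorem ip_E_left (k : X → K) (φ ψ : X → ℝ) : ip Φ (E Φ k φ) ψ = ip Φ φ (E Φ k ψ) := by
  have hm : ∀ (φ : X → ℝ), ∀ x ∈ Φ, ∀ y ∈ Φ, k x = k y → E Φ k φ x = E Φ k φ y :=
    fun φ x _ y _ h => E_eq_of_key_eq φ h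
  calc ip Φ (E Φ k φ) ψ = ip Φ (E Φ k φ) (E Φ k ψ) := ip_meas (hm φ) ψ
    _ = ip Φ (E Φ k ψ) (E Φ k φ) := ip_comm _ _
    _ = ip Φ (E Φ k ψ) φ := (ip_meas (hm ψ) φ).symm
    _ = ip Φ φ (E Φ k ψ) := ip_comm _ _

/-- a measurable function is orthogonal to a function with vanishing class averages. -/
theorem ip_meas_zero {k : X → K} {χ h : X → ℝ}
    (hχ : ∀ x ∈ Φ, ∀ y ∈ Φ, k x = k y → χ x = χ y) (hh : ∀ x ∈ Φ, E Φ k h x = 0) :
    ip Φ χ h = 0 := by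
  rw [ip_meas hχ h]
  unfold ip
  exact Finset.sum_eq_zero fun x hx => by rw [hh x hx, mul_zero]

/-- equal keys give equal averages when the two classes coincide. -/
theorem E_eq_of_cl_eq {k : X → K} {k' : X → K'} (φ : X → ℝ) {x : X}
    (h : ∀ y ∈ Φ, k y = k x ↔ k' y = k' x) : E Φ k φ x = E Φ k' φ x := by
  have : cl Φ k x = cl Φ k' x := by
    ext y
    simp only [mem_cl]
    constructor
    · rintro ⟨hy, hk⟩; exact ⟨hy, (h y hy).1 hk⟩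
    · rintro ⟨hy, hk⟩; exact ⟨hy, (h y hy).2 hk⟩
  rw [E_def, E_def, this]

theorem card_cl_le_of_inj {k₁ : X → K} {x y : X} (β : X → X)
    (hβ : ∀ z ∈ Φ, k₁ z = k₁ x → β z ∈ Φ ∧ k₁ (β z) = k₁ y)
    (hinj : ∀ z ∈ Φ, ∀ z' ∈ Φ, k₁ z = k₁ x → k₁ z' = k₁ x → β z = β z' → z = z') :
    (cl Φ k₁ x).card ≤ (cl Φ k₁ y).card := by
  apply Finset.card_le_card_of_injOn β
  · intro z hz
    have h1 := mem_cl.1 (Finset.mem_coe.1 hz)
    exact Finset.mem_coe.2 (mem_cl.2 (hβ z h1.1 h1.2))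
  · intro z hz z' hz' h
    have h1 := mem_cl.1 (Finset.mem_coe.1 hz)
    have h2 := mem_cl.1 (Finset.mem_coe.1 hz')
    exact hinj z h1.1 z' h2.1 h1.2 h2.2 h

theorem sum_cl_eq_of_bij {k₁ : X → K} {x y : X} (β : X → X) (ψ : X → ℝ)
    (hβ : ∀ z ∈ Φ, k₁ z = k₁ x → β z ∈ Φ ∧ k₁ (β z) = k₁ y ∧ ψ (β z) = ψ z)
    (hinj : ∀ z ∈ Φ, ∀ z' ∈ Φ, k₁ z = k₁ x → k₁ z' = k₁ x → β z = β z' → z = z')
    (hcard : (cl Φ k₁ y).card ≤ (cl Φ k₁ x).card) :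
    ∑ z ∈ cl Φ k₁ y, ψ z = ∑ z ∈ cl Φ k₁ x, ψ z := by
  classical
  have hinj' : Set.InjOn β (cl Φ k₁ x : Set X) := by
    intro z hz z' hz' h
    have h1 := mem_cl.1 (Finset.mem_coe.1 hz)
    have h2 := mem_cl.1 (Finset.mem_coe.1 hz')
    exact hinj z h1.1 z' h2.1 h1.2 h2.2 h
  have himg : (cl Φ k₁ x).image β = cl Φ k₁ y := by
    apply Finset.eq_of_subset_of_card_le
    · intro w hw
      obtain ⟨z, hz, rfl⟩ := Finset.mem_image.1 hw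
      have h1 := mem_cl.1 hz
      exact mem_cl.2 ⟨(hβ z h1.1 h1.2).1, (hβ z h1.1 h1.2).2.1⟩
    · rw [Finset.card_image_of_injOn hinj']; exact hcard
  rw [← himg, Finset.sum_image hinj']
  exact Finset.sum_congr rfl fun z hz => (hβ z (mem_cl.1 hz).1 (mem_cl.1 hz).2).2.2

/-- **composition of two class averages**: if `k₀` is coarser than `k₁` and `k₂`, and any two
`k₁`-classes in the same `k₀`-class are matched by an injection preserving `k₂`, then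
`E k₁ ∘ E k₂ = E k₀`. -/
theorem E_E_of_inj {k₀ : X → K₀} {k₁ : X → K} {k₂ : X → K'}
    (h1 : ∀ x ∈ Φ, ∀ y ∈ Φ, k₁ x = k₁ y → k₀ x = k₀ y)
    (h2 : ∀ x ∈ Φ, ∀ y ∈ Φ, k₂ x = k₂ y → k₀ x = k₀ y)
    (hβ : ∀ x ∈ Φ, ∀ y ∈ Φ, k₀ x = k₀ y → ∃ β : X → X,
        (∀ z ∈ Φ, k₁ z = k₁ x → β z ∈ Φ ∧ k₁ (β z) = k₁ y ∧ k₂ (β z) = k₂ z) ∧
        (∀ z ∈ Φ, ∀ z' ∈ Φ, k₁ z = k₁ x → k₁ z' = k₁ x → β z = β z' → z = z'))
    (φ : X → ℝ) {x : X} (hx : x ∈ Φ) :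
    E Φ k₁ (E Φ k₂ φ) x = E Φ k₀ φ x := by
  have hcard : ∀ x ∈ Φ, ∀ y ∈ Φ, k₀ x = k₀ y → (cl Φ k₁ x).card ≤ (cl Φ k₁ y).card := by
    intro x hx y hy hxy
    obtain ⟨β, hβ1, hβ2⟩ := hβ x hx y hy hxy
    exact card_cl_le_of_inj β (fun z hz hzx => ⟨(hβ1 z hz hzx).1, (hβ1 z hz hzx).2.1⟩) hβ2
  have hmeas : ∀ x ∈ Φ, ∀ y ∈ Φ, k₀ x = k₀ y →
      E Φ k₁ (E Φ k₂ φ) x = E Φ k₁ (E Φ k₂ φ) y := by
    intro x hx y hy hxy
    obtain ⟨β, hβ1, hβ2⟩ := hβ x hx y hy hxy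
    have hc : (cl Φ k₁ x).card = (cl Φ k₁ y).card :=
      le_antisymm (hcard x hx y hy hxy) (hcard y hy x hx hxy.symm)
    rw [E_def, E_def, hc]
    congr 1
    exact (sum_cl_eq_of_bij β (E Φ k₂ φ)
      (fun z hz hzx => ⟨(hβ1 z hz hzx).1, (hβ1 z hz hzx).2.1,
        E_eq_of_key_eq φ (hβ1 z hz hzx).2.2⟩) hβ2 hc.ge).symm
  calc E Φ k₁ (E Φ k₂ φ) x = E Φ k₀ (E Φ k₁ (E Φ k₂ φ)) x :=
        (E_of_const hx fun y hy hyx => hmeas y hy x hx hyx).symm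
    _ = E Φ k₀ (E Φ k₂ φ) x := E_tower h1 _ x
    _ = E Φ k₀ φ x := E_tower h2 _ x

/-- a sum over a filter as an inner product with the indicator. -/
theorem sum_filter_eq_ip (P : X → Prop) [DecidablePred P] (φ : X → ℝ) :
    ∑ x ∈ Φ.filter P, φ x = ip Φ (fun x => if P x then 1 else 0) φ := by
  unfold ip
  rw [Finset.sum_filter]
  exact Finset.sum_congr rfl fun x _ => by by_cases h : P x <;> simp [h]

/-- Jensen for a constant comparison function. -/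
theorem sum_sq_le_of_const {ι : Type*} (s : Finset ι) (a b : ι → ℝ)
    (hb : ∀ x ∈ s, ∀ y ∈ s, b x = b y) (hsum : ∑ x ∈ s, a x = ∑ x ∈ s, b x) :
    ∑ x ∈ s, b x ^ 2 ≤ ∑ x ∈ s, a x ^ 2 := by
  rcases s.eq_empty_or_nonempty with rfl | ⟨x₀, hx₀⟩
  · simp
  · have h0 : 0 ≤ ∑ x ∈ s, (a x - b x₀) ^ 2 := Finset.sum_nonneg fun x _ => sq_nonneg _
    have h1 : ∑ x ∈ s, (a x - b x₀) ^ 2
        = ∑ x ∈ s, a x ^ 2 - 2 * b x₀ * ∑ x ∈ s, a x + s.card * b x₀ ^ 2 := by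
      have : ∀ x ∈ s, (a x - b x₀) ^ 2 = (a x ^ 2 - 2 * b x₀ * a x) + b x₀ ^ 2 :=
        fun x _ => by ring
      rw [Finset.sum_congr rfl this, Finset.sum_add_distrib, Finset.sum_sub_distrib,
        ← Finset.mul_sum, Finset.sum_const, nsmul_eq_mul]
    have h2 : ∑ x ∈ s, b x = s.card * b x₀ := by
      rw [Finset.sum_congr rfl fun x hx => hb x hx x₀ hx₀, Finset.sum_const, nsmul_eq_mul]
    have h3 : ∑ x ∈ s, b x ^ 2 = s.card * b x₀ ^ 2 := by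
      rw [Finset.sum_congr rfl fun x hx => by rw [hb x hx x₀ hx₀], Finset.sum_const,
        nsmul_eq_mul]
    rw [hsum, h2] at h1
    rw [h3]
    nlinarith

/-! ### consequences of a composition identity `E k ∘ E p = E k₀` -/

section Comp

variable {P : Type*} [DecidableEq P] {p : X → P} {k : X → K} {k₀ : X → K₀}

theorem E_meas_of_comp (hO : ∀ (φ : X → ℝ), ∀ x ∈ Φ, E Φ k (E Φ p φ) x = E Φ k₀ φ x)
    {χ : X → ℝ} (hχ : ∀ x ∈ Φ, ∀ y ∈ Φ, p x = p y → χ x = χ y) {x : X} (hx : x ∈ Φ) :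
    E Φ k χ x = E Φ k₀ χ x := by
  rw [← hO χ x hx]
  exact E_congr (fun y hy => (E_of_const hy fun z hz hzy => hχ z hz y hy hzy).symm) x

theorem ip_adj_of_comp (hO : ∀ (φ : X → ℝ), ∀ x ∈ Φ, E Φ k (E Φ p φ) x = E Φ k₀ φ x)
    {χ : X → ℝ} (hχ : ∀ x ∈ Φ, ∀ y ∈ Φ, p x = p y → χ x = χ y) (φ : X → ℝ) :
    ip Φ χ (E Φ k φ) = ip Φ χ (E Φ k₀ φ) := by
  calc ip Φ χ (E Φ k φ) = ip Φ (E Φ k χ) φ := (ip_E_left k χ φ).symm
    _ = ip Φ (E Φ k₀ χ) φ := ip_congr (fun x hx => E_meas_of_comp hO hχ hx) (fun _ _ => rfl)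
    _ = ip Φ χ (E Φ k₀ φ) := ip_E_left k₀ χ φ

theorem ip_cross_of_comp (hO : ∀ (φ : X → ℝ), ∀ x ∈ Φ, E Φ k (E Φ p φ) x = E Φ k₀ φ x)
    (hp₀ : ∀ x ∈ Φ, ∀ y ∈ Φ, p x = p y → k₀ x = k₀ y)
    {χ h : X → ℝ} (hχ : ∀ x ∈ Φ, ∀ y ∈ Φ, p x = p y → χ x = χ y)
    (hh : ∀ x ∈ Φ, E Φ p h x = 0) :
    ip Φ χ (fun x => h x - E Φ k h x) = 0 := by
  have h0 : ∀ x ∈ Φ, E Φ k₀ h x = 0 := by
    intro x _
    rw [← E_tower hp₀ h x, E_congr (ψ := fun _ => (0 : ℝ)) hh x, E_zero]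
  have h1 : ip Φ χ (E Φ k₀ h) = 0 := by
    unfold ip
    exact Finset.sum_eq_zero fun x hx => by rw [h0 x hx, mul_zero]
  rw [ip_sub_right, ip_meas_zero hχ hh, ip_adj_of_comp hO hχ h, h1, sub_zero]

end Comp

end

end Crest.Agent.Helper18.TPL
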