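import Mathlib
import Crest.Agent.Helper18.TPL.Avg

/-!
# S0453, abstract two-pair lemma (helper18): coordinatised fibres

`Fib Φ M A C m As Cs`: the hypotheses of `Crest.Agent.Helper67.SW.TwoPairSpec` on the fibre.
The three composition identities of class averages (`O1`, `O2`, `O2'`) follow from the
"change `C`" / "change `A`" bijections between classes.
-/

set_option autoImplicit false

namespace Crest.Agent.Helper18.TPL

open Finset

/-- number of ones of a block. -/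
def tot (M0 : Bool × Bool × Bool × Bool) : ℕ :=
  (if M0.1 then 1 else 0) + (if M0.2.1 then 1 else 0) + (if M0.2.2.1 then 1 else 0)
    + (if M0.2.2.2 then 1 else 0)

/-- first row sum of a block. -/
def rho (M0 : Bool × Bool × Bool × Bool) : ℕ := (if M0.1 then 1 else 0) + (if M0.2.1 then 1 else 0)

/-- first column sum of a block. -/
def kap (M0 : Bool × Bool × Bool × Bool) : ℕ :=
  (if M0.1 then 1 else 0) + (if M0.2.2.1 then 1 else 0)

/-- a coordinatised fibre. -/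
structure Fib {X α γ : Type} (Φ : Finset X) (M : X → Bool × Bool × Bool × Bool) (A : X → α)
    (C : X → γ) (m : ℕ) (As : ℕ → Finset α) (Cs : ℕ → Finset γ) : Prop where
  inj : ∀ x ∈ Φ, ∀ y ∈ Φ, M x = M y → A x = A y → C x = C y → x = y
  img : ∀ M0 a c, (∃ x ∈ Φ, M x = M0 ∧ A x = a ∧ C x = c) ↔
      (tot M0 = m ∧ a ∈ As (rho M0) ∧ c ∈ Cs (kap M0))
  dA : ∀ r r', r ≠ r' → Disjoint (As r) (As r')
  dC : ∀ k k', k ≠ k' → Disjoint (Cs k) (Cs k')

namespace Fib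

variable {X α γ : Type} {Φ : Finset X} {M : X → Bool × Bool × Bool × Bool} {A : X → α}
  {C : X → γ} {m : ℕ} {As : ℕ → Finset α} {Cs : ℕ → Finset γ}

theorem tot_eq (F : Fib Φ M A C m As Cs) {x : X} (hx : x ∈ Φ) : tot (M x) = m :=
  ((F.img (M x) (A x) (C x)).1 ⟨x, hx, rfl, rfl, rfl⟩).1

theorem A_mem (F : Fib Φ M A C m As Cs) {x : X} (hx : x ∈ Φ) : A x ∈ As (rho (M x)) :=
  ((F.img (M x) (A x) (C x)).1 ⟨x, hx, rfl, rfl, rfl⟩).2.1

theorem C_mem (F : Fib Φ M A C m As Cs) {x : X} (hx : x ∈ Φ) : C x ∈ Cs (kap (M x)) :=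
  ((F.img (M x) (A x) (C x)).1 ⟨x, hx, rfl, rfl, rfl⟩).2.2

theorem kap_eq (F : Fib Φ M A C m As Cs) {x y : X} (hx : x ∈ Φ) (hy : y ∈ Φ) (h : C x = C y) :
    kap (M x) = kap (M y) := by
  by_contra hne
  have h1 := F.C_mem hx
  rw [h] at h1
  exact Finset.disjoint_left.1 (F.dC _ _ hne) h1 (F.C_mem hy)

theorem rho_eq (F : Fib Φ M A C m As Cs) {x y : X} (hx : x ∈ Φ) (hy : y ∈ Φ) (h : A x = A y) :
    rho (M x) = rho (M y) := by
  by_contra hne
  have h1 := F.A_mem hx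
  rw [h] at h1
  exact Finset.disjoint_left.1 (F.dA _ _ hne) h1 (F.A_mem hy)

/-- change the `C`-coordinate of the states of one `C`-class. -/
theorem changeC (F : Fib Φ M A C m As Cs) {x y : X} (hx : x ∈ Φ) (hy : y ∈ Φ)
    (hκ : kap (M x) = kap (M y)) :
    ∃ β : X → X, ∀ z ∈ Φ, C z = C x →
      β z ∈ Φ ∧ M (β z) = M z ∧ A (β z) = A z ∧ C (β z) = C y := by
  classical
  have hex : ∀ z, z ∈ Φ ∧ C z = C x → ∃ w, w ∈ Φ ∧ M w = M z ∧ A w = A z ∧ C w = C y := by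
    rintro z ⟨hz, hzx⟩
    have h3 : C y ∈ Cs (kap (M z)) := by
      rw [F.kap_eq hz hx hzx, hκ]; exact F.C_mem hy
    obtain ⟨w, hw, h1, h2, h3⟩ := (F.img (M z) (A z) (C y)).2 ⟨F.tot_eq hz, F.A_mem hz, h3⟩
    exact ⟨w, hw, h1, h2, h3⟩
  refine ⟨fun z => if h : z ∈ Φ ∧ C z = C x then (hex z h).choose else z, fun z hz hzx => ?_⟩
  have h : z ∈ Φ ∧ C z = C x := ⟨hz, hzx⟩
  simp only [dif_pos h]
  exact (hex z h).choose_spec

theorem changeC_inj (F : Fib Φ M A C m As Cs) {x y : X} {β : X → X}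
    (hβ : ∀ z ∈ Φ, C z = C x → β z ∈ Φ ∧ M (β z) = M z ∧ A (β z) = A z ∧ C (β z) = C y) :
    ∀ z ∈ Φ, ∀ z' ∈ Φ, C z = C x → C z' = C x → β z = β z' → z = z' := by
  intro z hz z' hz' h1 h2 h
  have e1 := hβ z hz h1
  have e2 := hβ z' hz' h2
  exact F.inj z hz z' hz' (by rw [← e1.2.1, h, e2.2.1]) (by rw [← e1.2.2.1, h, e2.2.2.1])
    (h1.trans h2.symm)

/-- change the `A`-coordinate of the states of one `A`-class. -/
theorem changeA (F : Fib Φ M A C m As Cs) {x y : X} (hx : x ∈ Φ) (hy : y ∈ Φ)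
    (hρ : rho (M x) = rho (M y)) :
    ∃ β : X → X, ∀ z ∈ Φ, A z = A x →
      β z ∈ Φ ∧ M (β z) = M z ∧ A (β z) = A y ∧ C (β z) = C z := by
  classical
  have hex : ∀ z, z ∈ Φ ∧ A z = A x → ∃ w, w ∈ Φ ∧ M w = M z ∧ A w = A y ∧ C w = C z := by
    rintro z ⟨hz, hzx⟩
    have h3 : A y ∈ As (rho (M z)) := by
      rw [F.rho_eq hz hx hzx, hρ]; exact F.A_mem hy
    obtain ⟨w, hw, h1, h2, h3⟩ := (F.img (M z) (A y) (C z)).2 ⟨F.tot_eq hz, h3, F.C_mem hz⟩
    exact ⟨w, hw, h1, h2, h3⟩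
  refine ⟨fun z => if h : z ∈ Φ ∧ A z = A x then (hex z h).choose else z, fun z hz hzx => ?_⟩
  have h : z ∈ Φ ∧ A z = A x := ⟨hz, hzx⟩
  simp only [dif_pos h]
  exact (hex z h).choose_spec

theorem changeA_inj (F : Fib Φ M A C m As Cs) {x y : X} {β : X → X}
    (hβ : ∀ z ∈ Φ, A z = A x → β z ∈ Φ ∧ M (β z) = M z ∧ A (β z) = A y ∧ C (β z) = C z) :
    ∀ z ∈ Φ, ∀ z' ∈ Φ, A z = A x → A z' = A x → β z = β z' → z = z' := by
  intro z hz z' hz' h1 h2 h
  have e1 := hβ z hz h1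
  have e2 := hβ z' hz' h2
  exact F.inj z hz z' hz' (by rw [← e1.2.1, h, e2.2.1]) (h1.trans h2.symm)
    (by rw [← e1.2.2.2, h, e2.2.2.2])

variable [DecidableEq α] [DecidableEq γ]

theorem pc_p (F : Fib Φ M A C m As Cs) : ∀ x ∈ Φ, ∀ y ∈ Φ,
    (fun x => (rho (M x), C x)) x = (fun x => (rho (M x), C x)) y →
    (fun x => (rho (M x), kap (M x))) x = (fun x => (rho (M x), kap (M x))) y := by
  intro x hx y hy h
  have h1 : rho (M x) = rho (M y) := congrArg Prod.fst h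
  have h2 : C x = C y := congrArg Prod.snd h
  show (rho (M x), kap (M x)) = (rho (M y), kap (M y))
  rw [h1, F.kap_eq hx hy h2]

theorem pa_p (F : Fib Φ M A C m As Cs) : ∀ x ∈ Φ, ∀ y ∈ Φ,
    (fun x => (kap (M x), A x)) x = (fun x => (kap (M x), A x)) y →
    (fun x => (rho (M x), kap (M x))) x = (fun x => (rho (M x), kap (M x))) y := by
  intro x hx y hy h
  have h1 : kap (M x) = kap (M y) := congrArg Prod.fst h
  have h2 : A x = A y := congrArg Prod.snd h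
  show (rho (M x), kap (M x)) = (rho (M y), kap (M y))
  rw [h1, F.rho_eq hx hy h2]

/-- `E[E[φ | κ, A] | ρ, C] = E[φ | ρ, κ]`. -/
theorem O1 (F : Fib Φ M A C m As Cs) (φ : X → ℝ) {x : X} (hx : x ∈ Φ) :
    E Φ (fun x => (rho (M x), C x)) (E Φ (fun x => (kap (M x), A x)) φ) x
      = E Φ (fun x => (rho (M x), kap (M x))) φ x := by
  refine E_E_of_inj (k₀ := fun x => (rho (M x), kap (M x))) (k₁ := fun x => (rho (M x), C x))
    (k₂ := fun x => (kap (M x), A x)) F.pc_p F.pa_p ?_ φ hx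
  intro x hx y hy h
  have h1 : rho (M x) = rho (M y) := congrArg Prod.fst h
  have h2 : kap (M x) = kap (M y) := congrArg Prod.snd h
  obtain ⟨β, hβ⟩ := F.changeC hx hy h2
  refine ⟨β, fun z hz hzx => ?_, fun z hz z' hz' e1 e2 e =>
    F.changeC_inj hβ z hz z' hz' (congrArg Prod.snd e1) (congrArg Prod.snd e2) e⟩
  have hz1 : rho (M z) = rho (M x) := congrArg Prod.fst hzx
  have hz2 : C z = C x := congrArg Prod.snd hzx
  obtain ⟨b1, b2, b3, b4⟩ := hβ z hz hz2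
  refine ⟨b1, ?_, ?_⟩
  · show (rho (M (β z)), C (β z)) = (rho (M y), C y)
    rw [b2, b4, hz1, h1]
  · show (kap (M (β z)), A (β z)) = (kap (M z), A z)
    rw [b2, b3]

/-- `E[E[φ | ρ, κ] | C] = E[φ | κ]`. -/
theorem O2 (F : Fib Φ M A C m As Cs) (φ : X → ℝ) {x : X} (hx : x ∈ Φ) :
    E Φ C (E Φ (fun x => (rho (M x), kap (M x))) φ) x = E Φ (fun x => kap (M x)) φ x := by
  refine E_E_of_inj (k₀ := fun x => kap (M x)) (k₁ := C)
    (k₂ := fun x => (rho (M x), kap (M x))) (fun x hx y hy h => F.kap_eq hx hy h)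
    (fun x _ y _ h => congrArg Prod.snd h) ?_ φ hx
  intro x hx y hy h
  obtain ⟨β, hβ⟩ := F.changeC hx hy h
  refine ⟨β, fun z hz hzx => ⟨(hβ z hz hzx).1, (hβ z hz hzx).2.2.2, ?_⟩, F.changeC_inj hβ⟩
  show (rho (M (β z)), kap (M (β z))) = (rho (M z), kap (M z))
  rw [(hβ z hz hzx).2.1]

/-- `E[E[φ | ρ, κ] | A] = E[φ | ρ]`. -/
theorem O2' (F : Fib Φ M A C m As Cs) (φ : X → ℝ) {x : X} (hx : x ∈ Φ) :
    E Φ A (E Φ (fun x => (rho (M x), kap (M x))) φ) x = E Φ (fun x => rho (M x)) φ x := by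
  refine E_E_of_inj (k₀ := fun x => rho (M x)) (k₁ := A)
    (k₂ := fun x => (rho (M x), kap (M x))) (fun x hx y hy h => F.rho_eq hx hy h)
    (fun x _ y _ h => congrArg Prod.fst h) ?_ φ hx
  intro x hx y hy h
  obtain ⟨β, hβ⟩ := F.changeA hx hy h
  refine ⟨β, fun z hz hzx => ⟨(hβ z hz hzx).1, (hβ z hz hzx).2.2.1, ?_⟩, F.changeA_inj hβ⟩
  show (rho (M (β z)), kap (M (β z))) = (rho (M z), kap (M z))
  rw [(hβ z hz hzx).2.1]

end Fib

end Crest.Agent.Helper18.TPL
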