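import Mathlib
import Crest.Agent.Helper18.TPL.Avg

/-!
# S0453, abstract two-pair lemma (helper18): the orthogonal splitting

Keys `c`, `a` (the two pair classes), `p` (the cell), `pc`, `pa` (cell refined by `c`, resp. `a`),
`kκ`, `kρ` (the two coarse keys).  From the three composition identities
`E pc ∘ E pa = E p`, `E c ∘ E p = E kκ`, `E a ∘ E p = E kρ` we get, with `g = E p f`, `h = f - g`
and `u = h - E c h - E a h`:

`⟨f - E c f, f - E a f⟩ = ⟨g - E kκ f, g - E kρ f⟩ + ⟨u, u⟩`.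
-/

set_option autoImplicit false

namespace Crest.Agent.Helper18.TPL

open Finset

section

variable {X : Type*} {Φ : Finset X}
variable {P PC PA Kc Ka K1 K2 : Type*} [DecidableEq P] [DecidableEq PC] [DecidableEq PA]
  [DecidableEq Kc] [DecidableEq Ka] [DecidableEq K1] [DecidableEq K2]

/-- the doubly centred fluctuation `u = h - E c h - E a h`, `h = f - E p f`. -/
noncomputable def uOf (Φ : Finset X) (p : X → P) (c : X → Kc) (a : X → Ka) (f : X → ℝ) (x : X) : ℝ :=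
  (f x - E Φ p f x) - E Φ c (fun y => f y - E Φ p f y) x - E Φ a (fun y => f y - E Φ p f y) x

theorem uOf_def (p : X → P) (c : X → Kc) (a : X → Ka) (f : X → ℝ) (x : X) :
    uOf Φ p c a f x =
      (f x - E Φ p f x) - E Φ c (fun y => f y - E Φ p f y) x
        - E Φ a (fun y => f y - E Φ p f y) x := rfl

variable {p : X → P} {pc : X → PC} {pa : X → PA} {c : X → Kc} {a : X → Ka}
  {kκ : X → K1} {kρ : X → K2}

/-- `E c (E a φ) = E kκ (E a φ)`. -/
theorem E_E_cross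
    (hpc : ∀ x ∈ Φ, ∀ y ∈ Φ, pc x = pc y → c x = c y)
    (hpa : ∀ x ∈ Φ, ∀ y ∈ Φ, pa x = pa y → a x = a y)
    (hO1 : ∀ (φ : X → ℝ), ∀ x ∈ Φ, E Φ pc (E Φ pa φ) x = E Φ p φ x)
    (hO2 : ∀ (φ : X → ℝ), ∀ x ∈ Φ, E Φ c (E Φ p φ) x = E Φ kκ φ x)
    (φ : X → ℝ) {x : X} (hx : x ∈ Φ) :
    E Φ c (E Φ a φ) x = E Φ kκ (E Φ a φ) x := by
  rw [← E_tower hpc (E Φ a φ) x, ← hO2 (E Φ a φ) x hx]
  refine E_congr (fun y hy => ?_) x
  rw [← hO1 (E Φ a φ) y hy]
  exact E_congr (fun z hz => (E_tower' hpa φ hz).symm) y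

/-- **the orthogonal splitting**. -/
theorem ip_split
    (hpc : ∀ x ∈ Φ, ∀ y ∈ Φ, pc x = pc y → c x = c y)
    (hpa : ∀ x ∈ Φ, ∀ y ∈ Φ, pa x = pa y → a x = a y)
    (hpκ : ∀ x ∈ Φ, ∀ y ∈ Φ, p x = p y → kκ x = kκ y)
    (hpρ : ∀ x ∈ Φ, ∀ y ∈ Φ, p x = p y → kρ x = kρ y)
    (hO1 : ∀ (φ : X → ℝ), ∀ x ∈ Φ, E Φ pc (E Φ pa φ) x = E Φ p φ x)
    (hO2 : ∀ (φ : X → ℝ), ∀ x ∈ Φ, E Φ c (E Φ p φ) x = E Φ kκ φ x)
    (hO2' : ∀ (φ : X → ℝ), ∀ x ∈ Φ, E Φ a (E Φ p φ) x = E Φ kρ φ x)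
    (f : X → ℝ) :
    ip Φ (fun x => f x - E Φ c f x) (fun x => f x - E Φ a f x)
      = ip Φ (fun x => E Φ p f x - E Φ kκ f x) (fun x => E Φ p f x - E Φ kρ f x)
        + ip Φ (uOf Φ p c a f) (uOf Φ p c a f) := by
  have hh : ∀ x ∈ Φ, E Φ p (fun y => f y - E Φ p f y) x = 0 := by
    intro x _
    rw [E_sub, E_idem, sub_self]
  have e1 : ∀ x ∈ Φ, f x - E Φ c f x
      = (E Φ p f x - E Φ kκ f x)
        + ((fun y => f y - E Φ p f y) x - E Φ c (fun y => f y - E Φ p f y) x) := by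
    intro x hx
    rw [E_sub, hO2 f x hx]
    ring
  have e2 : ∀ x ∈ Φ, f x - E Φ a f x
      = (E Φ p f x - E Φ kρ f x)
        + ((fun y => f y - E Φ p f y) x - E Φ a (fun y => f y - E Φ p f y) x) := by
    intro x hx
    rw [E_sub, hO2' f x hx]
    ring
  have hX : ∀ x ∈ Φ, ∀ y ∈ Φ, p x = p y →
      (fun x => E Φ p f x - E Φ kκ f x) x = (fun x => E Φ p f x - E Φ kκ f x) y := by
    intro x hx y hy hxy
    show E Φ p f x - E Φ kκ f x = E Φ p f y - E Φ kκ f y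
    rw [E_eq_of_key_eq f hxy, E_eq_of_key_eq f (hpκ x hx y hy hxy)]
  have hY : ∀ x ∈ Φ, ∀ y ∈ Φ, p x = p y →
      (fun x => E Φ p f x - E Φ kρ f x) x = (fun x => E Φ p f x - E Φ kρ f x) y := by
    intro x hx y hy hxy
    show E Φ p f x - E Φ kρ f x = E Φ p f y - E Φ kρ f y
    rw [E_eq_of_key_eq f hxy, E_eq_of_key_eq f (hpρ x hx y hy hxy)]
  generalize hhdef : (fun y => f y - E Φ p f y) = h at hh e1 e2
  have hu : uOf Φ p c a f = fun x => h x - E Φ c h x - E Φ a h x := by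
    funext x
    rw [uOf_def, hhdef, ← hhdef]
  rw [ip_congr e1 e2, ip_add_left, ip_add_right, ip_add_right,
    ip_cross_of_comp hO2' hpρ hX hh, ip_comm (fun x => h x - E Φ c h x),
    ip_cross_of_comp hO2 hpκ hY hh, hu]
  -- the main term
  have z1 : ip Φ (E Φ c h) (E Φ a h) = 0 := by
    rw [ip_E_left, ip_congr (fun _ _ => rfl) (fun x hx => E_E_cross hpc hpa hO1 hO2 h hx),
      ip_comm]
    exact ip_meas_zero (fun x hx y hy hxy => E_eq_of_key_eq _ (hpκ x hx y hy hxy)) hh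
  have z2 : ip Φ (E Φ c h) (E Φ c h) = ip Φ h (E Φ c h) :=
    (ip_E_left c h (E Φ c h)).trans (ip_congr (fun _ _ => rfl) (fun x _ => E_idem c h x))
  have z3 : ip Φ (E Φ a h) (E Φ a h) = ip Φ h (E Φ a h) :=
    (ip_E_left a h (E Φ a h)).trans (ip_congr (fun _ _ => rfl) (fun x _ => E_idem a h x))
  have key : ip Φ (fun x => h x - E Φ c h x - E Φ a h x) (fun x => h x - E Φ c h x - E Φ a h x)
      = ip Φ (fun x => h x - E Φ c h x) (fun x => h x - E Φ a h x)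
        + (ip Φ (E Φ c h) (E Φ c h) + ip Φ (E Φ a h) (E Φ a h) + ip Φ (E Φ c h) (E Φ a h)
          - ip Φ h (E Φ c h) - ip Φ h (E Φ a h)) := by
    simp only [ip]
    simp only [← Finset.sum_add_distrib, ← Finset.sum_sub_distrib]
    exact Finset.sum_congr rfl fun x _ => by ring
  rw [key, z1, z2, z3]
  ring

end

end Crest.Agent.Helper18.TPL
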