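import Mathlib
import Crest.Agent.Helper18.TPL.Avg
import Crest.Agent.Helper18.TPL.Split
import Crest.Agent.Helper18.TPL.Fib
import Crest.Agent.Helper67.SW.TwoPairSpec

/-!
# S0453, abstract two-pair lemma (helper18): the diamond case `m = 2`

`twoPairSpec_two`: the text of `Crest.Agent.Helper67.SW.TwoPairSpec` with `m = 2`.

Proof.  With `H = E[· | ρ, κ]`, `K = E[· | κ]`, `K' = E[· | ρ]`, `Q = E[· | C]`, `Q' = E[· | A]`,
`h = f - Hf`, `u = h - Qh - Q'h`, `X = Hf - Kf`, `Y = Hf - K'f`: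
* `⟨f - Qf, f - Q'f⟩ = ⟨X, Y⟩ + ⟨u, u⟩` (`ip_split`);
* `∑_{cp} (f x - f (sw x))² ≤ 2 ⟨u, u⟩` (`u x - u (sw x) = f x - f (sw x)`);
* `X * Y` vanishes off the centre (there the cell is a whole `κ`-class or a whole `ρ`-class);
* `Bad_C ≥ ∑_{centre} X²`, `Bad_A ≥ ∑_{centre} Y²` (Jensen);
so `2 ⟨f - Qf, f - Q'f⟩ - Sw + Bad_C + Bad_A ≥ ∑_{centre} (X + Y)² ≥ 0`.
-/

set_option autoImplicit false

namespace Crest.Agent.Helper18.TPL

open Finset Crest.Agent.Helper67.SW

/-! ### facts on blocks -/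

theorem blk_ctr_iff : ∀ M0 : Bool × Bool × Bool × Bool, tot M0 = 2 →
    (IsCtr M0 ↔ rho M0 = 1 ∧ kap M0 = 1) := by
  unfold IsCtr; decide

theorem blk_off : ∀ M0 : Bool × Bool × Bool × Bool, tot M0 = 2 → ¬ IsCtr M0 →
    (∀ M1 : Bool × Bool × Bool × Bool, tot M1 = 2 → kap M1 = kap M0 → rho M1 = rho M0) ∨
    (∀ M1 : Bool × Bool × Bool × Bool, tot M1 = 2 → rho M1 = rho M0 → kap M1 = kap M0) := by
  unfold IsCtr; decide

theorem isCtr_cp : IsCtr (true, false, false, true) := Or.inl rfl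

theorem isCtr_cm : IsCtr (false, true, true, false) := Or.inr rfl

/-! ### generic Jensen step for a `Bad` term -/

section Bad

variable {X : Type*} {Φ : Finset X}
variable {P PK K K₀ : Type*} [DecidableEq P] [DecidableEq PK] [DecidableEq K] [DecidableEq K₀]

theorem bad_ge {p : X → P} {pk : X → PK} {k : X → K} {k₀ : X → K₀} (Ct : X → Prop)
    [DecidablePred Ct]
    (hχ : ∀ x ∈ Φ, ∀ y ∈ Φ, p x = p y → (Ct x ↔ Ct y))
    (hpk : ∀ x ∈ Φ, ∀ y ∈ Φ, pk x = pk y → p x = p y)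
    (hO : ∀ (φ : X → ℝ), ∀ x ∈ Φ, E Φ k (E Φ p φ) x = E Φ k₀ φ x)
    (hconst : ∀ x ∈ Φ, ∀ y ∈ Φ, Ct x → Ct y → p x = p y ∧ k₀ x = k₀ y)
    (hcl : ∀ x ∈ Φ, Ct x → ∀ y ∈ Φ, (k y = k x ∧ Ct y) ↔ pk y = pk x)
    (f : X → ℝ) :
    ∑ x ∈ Φ.filter Ct, (E Φ p f x - E Φ k₀ f x) ^ 2
      ≤ ∑ x ∈ Φ.filter Ct,
          ((∑ y ∈ Φ.filter (fun y => k y = k x ∧ Ct y), f y) /
              ((Φ.filter (fun y => k y = k x ∧ Ct y)).card : ℝ) - E Φ k f x) ^ 2 := by
  have hχp : ∀ x ∈ Φ, ∀ y ∈ Φ, p x = p y →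
      (fun x => if Ct x then (1 : ℝ) else 0) x = (fun x => if Ct x then (1 : ℝ) else 0) y := by
    intro x hx y hy hxy
    show (if Ct x then (1 : ℝ) else 0) = (if Ct y then (1 : ℝ) else 0)
    by_cases h1 : Ct x
    · rw [if_pos h1, if_pos ((hχ x hx y hy hxy).1 h1)]
    · rw [if_neg h1, if_neg (fun h2 => h1 ((hχ x hx y hy hxy).2 h2))]
  have hχpk : ∀ x ∈ Φ, ∀ y ∈ Φ, pk x = pk y →
      (fun x => if Ct x then (1 : ℝ) else 0) x = (fun x => if Ct x then (1 : ℝ) else 0) y :=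
    fun x hx y hy hxy => hχp x hx y hy (hpk x hx y hy hxy)
  have hR : ∀ x ∈ Φ.filter Ct,
      ((∑ y ∈ Φ.filter (fun y => k y = k x ∧ Ct y), f y) /
          ((Φ.filter (fun y => k y = k x ∧ Ct y)).card : ℝ) - E Φ k f x) ^ 2
        = (E Φ pk f x - E Φ k f x) ^ 2 := by
    intro x hx
    have hx' := Finset.mem_filter.1 hx
    have : Φ.filter (fun y => k y = k x ∧ Ct y) = Φ.filter (fun y => pk y = pk x) :=
      Finset.filter_congr fun y hy => hcl x hx'.1 hx'.2 y hy
    rw [this]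
    rfl
  rw [Finset.sum_congr rfl hR]
  refine sum_sq_le_of_const (Φ.filter Ct) (fun x => E Φ pk f x - E Φ k f x)
    (fun x => E Φ p f x - E Φ k₀ f x) ?_ ?_
  · intro x hx y hy
    have hx' := Finset.mem_filter.1 hx
    have hy' := Finset.mem_filter.1 hy
    have h := hconst x hx'.1 y hy'.1 hx'.2 hy'.2
    show E Φ p f x - E Φ k₀ f x = E Φ p f y - E Φ k₀ f y
    rw [E_eq_of_key_eq f h.1, E_eq_of_key_eq f h.2]
  · rw [sum_filter_eq_ip, sum_filter_eq_ip, ip_sub_right, ip_sub_right,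
      ← ip_meas hχpk f, ← ip_meas hχp f, ip_adj_of_comp hO hχp f]

end Bad

/-! ### the diamond -/

section Diamond

variable {X α γ : Type} [DecidableEq α] [DecidableEq γ] {Φ : Finset X}
  {M : X → Bool × Bool × Bool × Bool} {A : X → α} {C : X → γ}
  {As : ℕ → Finset α} {Cs : ℕ → Finset γ}

theorem Fib.ctr_iff (F : Fib Φ M A C 2 As Cs) {x : X} (hx : x ∈ Φ) :
    IsCtr (M x) ↔ rho (M x) = 1 ∧ kap (M x) = 1 :=
  blk_ctr_iff (M x) (F.tot_eq hx)

/-- the switch term is controlled by the fluctuation. -/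
theorem Fib.sw_le (F : Fib Φ M A C 2 As Cs) (sw : X → X) (f : X → ℝ)
    (hsw : ∀ x ∈ Φ, M x = (true, false, false, true) →
        sw x ∈ Φ ∧ M (sw x) = (false, true, true, false) ∧ A (sw x) = A x ∧ C (sw x) = C x) :
    ∑ x ∈ Φ.filter (fun x => M x = (true, false, false, true)), (f x - f (sw x)) ^ 2
      ≤ 2 * ip Φ (uOf Φ (fun x => (rho (M x), kap (M x))) C A f)
          (uOf Φ (fun x => (rho (M x), kap (M x))) C A f) := by
  classical
  set u := uOf Φ (fun x => (rho (M x), kap (M x))) C A f with hu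
  have ha : ∀ x ∈ Φ.filter (fun x => M x = (true, false, false, true)),
      (f x - f (sw x)) ^ 2 ≤ 2 * u x ^ 2 + 2 * u (sw x) ^ 2 := by
    intro x hx
    have hx' := Finset.mem_filter.1 hx
    obtain ⟨s1, s2, s3, s4⟩ := hsw x hx'.1 hx'.2
    have hk : (fun x => (rho (M x), kap (M x))) (sw x) = (fun x => (rho (M x), kap (M x))) x := by
      show (rho (M (sw x)), kap (M (sw x))) = (rho (M x), kap (M x))
      rw [s2, hx'.2]; rfl
    have e : f x - f (sw x) = u x - u (sw x) := by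
      have g1 : E Φ (fun x => (rho (M x), kap (M x))) f (sw x)
          = E Φ (fun x => (rho (M x), kap (M x))) f x :=
        E_eq_of_key_eq (k := fun x => (rho (M x), kap (M x))) f hk
      have g2 : E Φ C (fun y => f y - E Φ (fun x => (rho (M x), kap (M x))) f y) (sw x)
          = E Φ C (fun y => f y - E Φ (fun x => (rho (M x), kap (M x))) f y) x :=
        E_eq_of_key_eq (k := C) _ s4
      have g3 : E Φ A (fun y => f y - E Φ (fun x => (rho (M x), kap (M x))) f y) (sw x)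
          = E Φ A (fun y => f y - E Φ (fun x => (rho (M x), kap (M x))) f y) x :=
        E_eq_of_key_eq (k := A) _ s3
      rw [hu, uOf_def, uOf_def, g1, g2, g3]
      ring
    rw [e]
    nlinarith [sq_nonneg (u x + u (sw x))]
  have hinj : Set.InjOn sw (Φ.filter (fun x => M x = (true, false, false, true)) : Set X) := by
    intro x hx y hy h
    have hx' := Finset.mem_filter.1 (Finset.mem_coe.1 hx)
    have hy' := Finset.mem_filter.1 (Finset.mem_coe.1 hy)
    obtain ⟨-, -, s3, s4⟩ := hsw x hx'.1 hx'.2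
    obtain ⟨-, -, t3, t4⟩ := hsw y hy'.1 hy'.2
    exact F.inj x hx'.1 y hy'.1 (hx'.2.trans hy'.2.symm) (by rw [← s3, h, t3])
      (by rw [← s4, h, t4])
  have hb : ∑ x ∈ Φ.filter (fun x => M x = (true, false, false, true)), u (sw x) ^ 2
      ≤ ∑ x ∈ Φ.filter (fun x => ¬ M x = (true, false, false, true)), u x ^ 2 := by
    rw [← Finset.sum_image (f := fun y => u y ^ 2) hinj]
    refine Finset.sum_le_sum_of_subset_of_nonneg ?_ (fun _ _ _ => sq_nonneg _)
    intro y hy
    obtain ⟨x, hx, rfl⟩ := Finset.mem_image.1 hy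
    have hx' := Finset.mem_filter.1 hx
    obtain ⟨s1, s2, -, -⟩ := hsw x hx'.1 hx'.2
    refine Finset.mem_filter.2 ⟨s1, ?_⟩
    rw [s2]; decide
  have hc : ip Φ u u
      = ∑ x ∈ Φ.filter (fun x => M x = (true, false, false, true)), u x ^ 2
        + ∑ x ∈ Φ.filter (fun x => ¬ M x = (true, false, false, true)), u x ^ 2 := by
    rw [Finset.sum_filter_add_sum_filter_not]
    unfold ip
    exact Finset.sum_congr rfl fun x _ => by ring
  calc ∑ x ∈ Φ.filter (fun x => M x = (true, false, false, true)), (f x - f (sw x)) ^ 2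
      ≤ ∑ x ∈ Φ.filter (fun x => M x = (true, false, false, true)),
          (2 * u x ^ 2 + 2 * u (sw x) ^ 2) := Finset.sum_le_sum ha
    _ = 2 * ∑ x ∈ Φ.filter (fun x => M x = (true, false, false, true)), u x ^ 2
          + 2 * ∑ x ∈ Φ.filter (fun x => M x = (true, false, false, true)), u (sw x) ^ 2 := by
        rw [Finset.sum_add_distrib, ← Finset.mul_sum, ← Finset.mul_sum]
    _ ≤ 2 * ip Φ u u := by rw [hc]; linarith

/-- the cell part is supported on the centre. -/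
theorem Fib.cell_eq (F : Fib Φ M A C 2 As Cs) (f : X → ℝ) :
    ip Φ (fun x => E Φ (fun x => (rho (M x), kap (M x))) f x - E Φ (fun x => kap (M x)) f x)
        (fun x => E Φ (fun x => (rho (M x), kap (M x))) f x - E Φ (fun x => rho (M x)) f x)
      = ∑ x ∈ Φ.filter (fun x => IsCtr (M x)),
          (E Φ (fun x => (rho (M x), kap (M x))) f x - E Φ (fun x => kap (M x)) f x) *
          (E Φ (fun x => (rho (M x), kap (M x))) f x - E Φ (fun x => rho (M x)) f x) := by
  unfold ip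
  rw [← Finset.sum_filter_add_sum_filter_not Φ (fun x => IsCtr (M x))]
  have h0 : ∀ x ∈ Φ.filter (fun x => ¬ IsCtr (M x)),
      (E Φ (fun x => (rho (M x), kap (M x))) f x - E Φ (fun x => kap (M x)) f x) *
        (E Φ (fun x => (rho (M x), kap (M x))) f x - E Φ (fun x => rho (M x)) f x) = 0 := by
    intro x hx
    have hx' := Finset.mem_filter.1 hx
    rcases blk_off (M x) (F.tot_eq hx'.1) hx'.2 with h | h
    · have : E Φ (fun x => (rho (M x), kap (M x))) f x = E Φ (fun x => kap (M x)) f x := by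
        refine E_eq_of_cl_eq f fun y hy => ⟨fun e => congrArg Prod.snd e, fun e => ?_⟩
        have e' : kap (M y) = kap (M x) := e
        show (rho (M y), kap (M y)) = (rho (M x), kap (M x))
        rw [e', h (M y) (F.tot_eq hy) e']
      rw [this, sub_self, zero_mul]
    · have : E Φ (fun x => (rho (M x), kap (M x))) f x = E Φ (fun x => rho (M x)) f x := by
        refine E_eq_of_cl_eq f fun y hy => ⟨fun e => congrArg Prod.fst e, fun e => ?_⟩
        have e' : rho (M y) = rho (M x) := e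
        show (rho (M y), kap (M y)) = (rho (M x), kap (M x))
        rw [e', h (M y) (F.tot_eq hy) e']
      rw [this, sub_self, mul_zero]
  rw [Finset.sum_eq_zero h0, add_zero]

theorem Fib.ctr_meas (F : Fib Φ M A C 2 As Cs) : ∀ x ∈ Φ, ∀ y ∈ Φ,
    (fun x => (rho (M x), kap (M x))) x = (fun x => (rho (M x), kap (M x))) y →
    (IsCtr (M x) ↔ IsCtr (M y)) := by
  intro x hx y hy h
  have h1 : rho (M x) = rho (M y) := congrArg Prod.fst h
  have h2 : kap (M x) = kap (M y) := congrArg Prod.snd h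
  rw [F.ctr_iff hx, F.ctr_iff hy, h1, h2]

/-- `Bad_C ≥ ∑_{centre} (Hf - Kf)²`. -/
theorem Fib.badC_ge (F : Fib Φ M A C 2 As Cs) (f : X → ℝ) :
    ∑ x ∈ Φ.filter (fun x => IsCtr (M x)),
        (E Φ (fun x => (rho (M x), kap (M x))) f x - E Φ (fun x => kap (M x)) f x) ^ 2
      ≤ ∑ x ∈ Φ.filter (fun x => IsCtr (M x)),
          ((∑ y ∈ Φ.filter (fun y => C y = C x ∧ IsCtr (M y)), f y) /
              ((Φ.filter (fun y => C y = C x ∧ IsCtr (M y))).card : ℝ) - E Φ C f x) ^ 2 := by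
  refine bad_ge (p := fun x => (rho (M x), kap (M x))) (pk := fun x => (rho (M x), C x))
    (k := C) (k₀ := fun x => kap (M x)) (fun x => IsCtr (M x)) F.ctr_meas F.pc_p
    (fun φ x hx => F.O2 φ hx) ?_ ?_ f
  · intro x hx y hy cx cy
    have h1 := (F.ctr_iff hx).1 cx
    have h2 := (F.ctr_iff hy).1 cy
    refine ⟨?_, ?_⟩
    · show (rho (M x), kap (M x)) = (rho (M y), kap (M y))
      rw [h1.1, h1.2, h2.1, h2.2]
    · show kap (M x) = kap (M y)
      rw [h1.2, h2.2]
  · intro x hx cx y hy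
    have h1 := (F.ctr_iff hx).1 cx
    constructor
    · rintro ⟨e, cy⟩
      have h2 := (F.ctr_iff hy).1 cy
      show (rho (M y), C y) = (rho (M x), C x)
      rw [e, h1.1, h2.1]
    · intro e
      have e1 : rho (M y) = rho (M x) := congrArg Prod.fst e
      have e2 : C y = C x := congrArg Prod.snd e
      refine ⟨e2, (F.ctr_iff hy).2 ⟨e1.trans h1.1, (F.kap_eq hy hx e2).trans h1.2⟩⟩

/-- `Bad_A ≥ ∑_{centre} (Hf - K'f)²`. -/
theorem Fib.badA_ge (F : Fib Φ M A C 2 As Cs) (f : X → ℝ) :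
    ∑ x ∈ Φ.filter (fun x => IsCtr (M x)),
        (E Φ (fun x => (rho (M x), kap (M x))) f x - E Φ (fun x => rho (M x)) f x) ^ 2
      ≤ ∑ x ∈ Φ.filter (fun x => IsCtr (M x)),
          ((∑ y ∈ Φ.filter (fun y => A y = A x ∧ IsCtr (M y)), f y) /
              ((Φ.filter (fun y => A y = A x ∧ IsCtr (M y))).card : ℝ) - E Φ A f x) ^ 2 := by
  refine bad_ge (p := fun x => (rho (M x), kap (M x))) (pk := fun x => (kap (M x), A x))
    (k := A) (k₀ := fun x => rho (M x)) (fun x => IsCtr (M x)) F.ctr_meas F.pa_p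
    (fun φ x hx => F.O2' φ hx) ?_ ?_ f
  · intro x hx y hy cx cy
    have h1 := (F.ctr_iff hx).1 cx
    have h2 := (F.ctr_iff hy).1 cy
    refine ⟨?_, ?_⟩
    · show (rho (M x), kap (M x)) = (rho (M y), kap (M y))
      rw [h1.1, h1.2, h2.1, h2.2]
    · show rho (M x) = rho (M y)
      rw [h1.1, h2.1]
  · intro x hx cx y hy
    have h1 := (F.ctr_iff hx).1 cx
    constructor
    · rintro ⟨e, cy⟩
      have h2 := (F.ctr_iff hy).1 cy
      show (kap (M y), A y) = (kap (M x), A x)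
      rw [e, h1.2, h2.2]
    · intro e
      have e1 : kap (M y) = kap (M x) := congrArg Prod.fst e
      have e2 : A y = A x := congrArg Prod.snd e
      refine ⟨e2, (F.ctr_iff hy).2 ⟨(F.rho_eq hy hx e2).trans h1.1, e1.trans h1.2⟩⟩

/-- **the diamond inequality** on a coordinatised fibre with `m = 2`. -/
theorem Fib.diamond (F : Fib Φ M A C 2 As Cs) (sw : X → X) (f : X → ℝ)
    (hsw : ∀ x ∈ Φ, M x = (true, false, false, true) →
        sw x ∈ Φ ∧ M (sw x) = (false, true, true, false) ∧ A (sw x) = A x ∧ C (sw x) = C x) :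
    ∑ x ∈ Φ.filter (fun x => M x = (true, false, false, true)), (f x - f (sw x)) ^ 2
      - ∑ x ∈ Φ.filter (fun x => IsCtr (M x)),
          ((∑ y ∈ Φ.filter (fun y => C y = C x ∧ IsCtr (M y)), f y) /
              ((Φ.filter (fun y => C y = C x ∧ IsCtr (M y))).card : ℝ) - E Φ C f x) ^ 2
      - ∑ x ∈ Φ.filter (fun x => IsCtr (M x)),
          ((∑ y ∈ Φ.filter (fun y => A y = A x ∧ IsCtr (M y)), f y) /
              ((Φ.filter (fun y => A y = A x ∧ IsCtr (M y))).card : ℝ) - E Φ A f x) ^ 2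
      ≤ 2 * ip Φ (fun x => f x - E Φ C f x) (fun x => f x - E Φ A f x) := by
  have hI := ip_split (Φ := Φ) (p := fun x => (rho (M x), kap (M x)))
    (pc := fun x => (rho (M x), C x)) (pa := fun x => (kap (M x), A x)) (c := C) (a := A)
    (kκ := fun x => kap (M x)) (kρ := fun x => rho (M x))
    (fun x _ y _ h => congrArg Prod.snd h) (fun x _ y _ h => congrArg Prod.snd h)
    (fun x _ y _ h => congrArg Prod.snd h) (fun x _ y _ h => congrArg Prod.fst h)
    (fun φ x hx => F.O1 φ hx) (fun φ x hx => F.O2 φ hx) (fun φ x hx => F.O2' φ hx) f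
  have h1 := F.sw_le sw f hsw
  have h2 := F.cell_eq f
  have h3 := F.badC_ge f
  have h4 := F.badA_ge f
  have h5 : 0 ≤ ∑ x ∈ Φ.filter (fun x => IsCtr (M x)),
      ((E Φ (fun x => (rho (M x), kap (M x))) f x - E Φ (fun x => kap (M x)) f x)
        + (E Φ (fun x => (rho (M x), kap (M x))) f x - E Φ (fun x => rho (M x)) f x)) ^ 2 :=
    Finset.sum_nonneg fun x _ => sq_nonneg _
  have h6 : ∑ x ∈ Φ.filter (fun x => IsCtr (M x)),
      ((E Φ (fun x => (rho (M x), kap (M x))) f x - E Φ (fun x => kap (M x)) f x)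
        + (E Φ (fun x => (rho (M x), kap (M x))) f x - E Φ (fun x => rho (M x)) f x)) ^ 2
      = ∑ x ∈ Φ.filter (fun x => IsCtr (M x)),
          (E Φ (fun x => (rho (M x), kap (M x))) f x - E Φ (fun x => kap (M x)) f x) ^ 2
        + 2 * ∑ x ∈ Φ.filter (fun x => IsCtr (M x)),
          (E Φ (fun x => (rho (M x), kap (M x))) f x - E Φ (fun x => kap (M x)) f x) *
          (E Φ (fun x => (rho (M x), kap (M x))) f x - E Φ (fun x => rho (M x)) f x)
        + ∑ x ∈ Φ.filter (fun x => IsCtr (M x)),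
          (E Φ (fun x => (rho (M x), kap (M x))) f x - E Φ (fun x => rho (M x)) f x) ^ 2 := by
    rw [Finset.mul_sum, ← Finset.sum_add_distrib, ← Finset.sum_add_distrib]
    exact Finset.sum_congr rfl fun x _ => by ring
  rw [hI, h2]
  linarith

end Diamond

/-- **`TwoPairSpec` for `m = 2`** (the text of `Crest.Agent.Helper67.SW.TwoPairSpec` with
`m` replaced by `2`). -/
theorem twoPairSpec_two :
    ∀ (X α γ : Type) [DecidableEq α] [DecidableEq γ]
    (Φ : Finset X) (M : X → Bool × Bool × Bool × Bool) (A : X → α) (C : X → γ)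
    (As : ℕ → Finset α) (Cs : ℕ → Finset γ) (sw : X → X) (f : X → ℝ),
    (∀ x ∈ Φ, ∀ y ∈ Φ, M x = M y → A x = A y → C x = C y → x = y) →
    (∀ M0 a c, (∃ x ∈ Φ, M x = M0 ∧ A x = a ∧ C x = c) ↔
        ((if M0.1 then 1 else 0) + (if M0.2.1 then 1 else 0) + (if M0.2.2.1 then 1 else 0)
            + (if M0.2.2.2 then 1 else 0) = 2 ∧
          a ∈ As ((if M0.1 then 1 else 0) + (if M0.2.1 then 1 else 0)) ∧
          c ∈ Cs ((if M0.1 then 1 else 0) + (if M0.2.2.1 then 1 else 0)))) →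
    (∀ r r', r ≠ r' → Disjoint (As r) (As r')) →
    (∀ k k', k ≠ k' → Disjoint (Cs k) (Cs k')) →
    (∀ x ∈ Φ, M x = (true, false, false, true) →
        sw x ∈ Φ ∧ M (sw x) = (false, true, true, false) ∧ A (sw x) = A x ∧ C (sw x) = C x) →
    ∑ x ∈ Φ.filter (fun x => M x = (true, false, false, true)), (f x - f (sw x)) ^ 2
      - ∑ x ∈ Φ.filter (fun x => IsCtr (M x)),
          ((∑ y ∈ Φ.filter (fun y => C y = C x ∧ IsCtr (M y)), f y) /
              ((Φ.filter (fun y => C y = C x ∧ IsCtr (M y))).card : ℝ)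
            - (∑ y ∈ Φ.filter (fun y => C y = C x), f y) /
              ((Φ.filter (fun y => C y = C x)).card : ℝ)) ^ 2
      - ∑ x ∈ Φ.filter (fun x => IsCtr (M x)),
          ((∑ y ∈ Φ.filter (fun y => A y = A x ∧ IsCtr (M y)), f y) /
              ((Φ.filter (fun y => A y = A x ∧ IsCtr (M y))).card : ℝ)
            - (∑ y ∈ Φ.filter (fun y => A y = A x), f y) /
              ((Φ.filter (fun y => A y = A x)).card : ℝ)) ^ 2
      ≤ 2 * ∑ x ∈ Φ,
          (f x - (∑ y ∈ Φ.filter (fun y => C y = C x), f y) /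
              ((Φ.filter (fun y => C y = C x)).card : ℝ)) *
          (f x - (∑ y ∈ Φ.filter (fun y => A y = A x), f y) /
              ((Φ.filter (fun y => A y = A x)).card : ℝ)) := by
  intro X α γ _ _ Φ M A C As Cs sw f hinj himg hdA hdC hsw
  exact Fib.diamond (⟨hinj, himg, hdA, hdC⟩ : Fib Φ M A C 2 As Cs) sw f hsw

end Crest.Agent.Helper18.TPL
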